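import Vale.Agent.P310T.Main

/-!
# P310: deciding Weisfeiler-Leman equivalence takes time `n ^ Θ(k)`
-/

namespace Vale.Agent.Results.P310.AATheta

open Filter Turing Vale.Agent.P310 Vale.Agent.P310Z Vale.Agent.P310T

/-- `T` is the worst-case running time `T_A` of a multitape Turing machine `A` which decides `≡_k`,
or a bound for the running time of a stack machine or a random access machine which decides
`≡_k`. -/
def IsTime (k : ℕ) (T : ℕ → ℕ) : Prop :=
  (∃ A : TM, A.Decides k ∧ T = A.worst) ∨ DecidableInTime k T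

/-- (1) Lower bound `n ^ (c k)` for all multitape Turing machines, stack machines and random access
machines. (2) Upper bound `O(n ^ (C k))`, by a multitape Turing machine and by a stack machine.
(3) No exponent `g(k) = o(k)` is possible. (4) The worst-case time is attained, and it is the
number of steps until the machine halts. -/
theorem result :
    (∃ c : ℝ, 0 < c ∧ ∃ k₀ : ℕ, ∀ k : ℕ, k₀ ≤ k → ∀ T : ℕ → ℕ, IsTime k T →
      ∀ᶠ n : ℕ in atTop, (n : ℝ) ^ (c * k) ≤ (T n : ℝ)) ∧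
    (∃ C : ℕ, ∀ k : ℕ, 2 ≤ k →
      (∃ A : TM, A.Decides k ∧
        (fun n : ℕ => (A.worst n : ℝ)) =O[atTop] (fun n : ℕ => (n : ℝ) ^ (C * k))) ∧
      ∃ (A : FinTM2) (inp : Bool → A.Γ A.k₀) (yes : A.Γ A.k₁) (T : ℕ → ℕ),
        DecidesWL A inp yes k T ∧
          (fun n : ℕ => (T n : ℝ)) =O[atTop] (fun n : ℕ => (n : ℝ) ^ (C * k))) ∧
    (¬ ∃ g : ℕ → ℝ, g =o[atTop] (fun k : ℕ => (k : ℝ)) ∧
      ∀ k : ℕ, 2 ≤ k → ∃ T : ℕ → ℕ, IsTime k T ∧
        (fun n : ℕ => (T n : ℝ)) =O[atTop] (fun n : ℕ => (n : ℝ) ^ g k)) ∧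
    ∀ (k : ℕ) (A : TM), A.Decides k → ∀ n : ℕ,
      IsGreatest {t | ∃ G H : SimpleGraph (Fin n),
        IsLeast {s | A.act (A.conf (inputWord G H) s) = none} t} (A.worst n) := by
  refine ⟨lower, upper, noSub, fun k A hA n => ⟨?_, ?_⟩⟩
  · obtain ⟨G, H, e⟩ := worst_attained A n
    obtain ⟨t, ht, -⟩ := hA n G H
    exact ⟨G, H, e ▸ (time_spec ht).2.1, fun s hs => e ▸ (time_spec hs).1⟩
  · rintro t ⟨G, H, ht, hmin⟩
    exact (hmin (time_spec ht).2.1).trans (time_le_worst G H)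

end Vale.Agent.Results.P310.AATheta
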